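import Mathlib
import Vale.Agent.Lib.P078.Defs
import Vale.Agent.Lib.P078.Abs.Basic
import Vale.Agent.Lib.P078.Abs.UpperAbs
import Vale.Agent.Lib.P078.Abs.LowerAbs
import Vale.Agent.Lib.P078.Abs.Concrete

/-!
# P078: the so-paving size of every MASA of `B(H)` without minimal projections is `⌈1/ε⌉`

`H` is any nonzero complex Hilbert space, `M = B(H)` (all bounded operators) and `A` is any
maximal abelian self-adjoint subalgebra of `B(H)` (a set of operators that equals its commutant
and is closed under adjoints) without minimal projections (every nonzero projection of `A`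
dominates a different nonzero projection of `A`).  Then every self-adjoint `x ∈ B(H)` is
`(ε, r)` so-pavable over `A` if and only if `r ε ≥ 1`, so that `n_{A ⊆ M}(ε) = ⌈1/ε⌉` for every
`ε > 0`.

The multiplication algebras `L^∞(μ)` on `L²(μ)`, `μ` finite nonzero atomless, satisfy these
hypotheses (`multAlg_isMasa`, `multAlg_noMinProj`, `nontrivial_Lp_of_ne_zero` in
`Lib/P078/Abs/Concrete.lean`).
-/

namespace Vale.Agent.Results.P078.AbstractMasaExact

open Vale.Agent.Lib.P078

universe u

theorem result {H : Type u} [NormedAddCommGroup H] [InnerProductSpace ℂ H] [CompleteSpace H]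
    [Nontrivial H] (A : Set (H →L[ℂ] H))
    (hcomm : ∀ T : H →L[ℂ] H, T ∈ A ↔ ∀ S ∈ A, S * T = T * S)
    (hstar : ∀ T ∈ A, star T ∈ A)
    (hdiff : ∀ p ∈ A, IsStarProjection p → p ≠ 0 →
      ∃ p' ∈ A, IsStarProjection p' ∧ p' ≠ 0 ∧ p' ≠ p ∧ p * p' = p') :
    (∀ (ε : ℝ) (r : ℕ), 0 < ε →
      ((∀ x : H →L[ℂ] H, IsSelfAdjoint x → SoPavable Set.univ A x ε r)
        ↔ 1 ≤ (r : ℝ) * ε)) ∧
    (∀ ε : ℝ, 0 < ε → pavingSize Set.univ A ε = ⌈1 / ε⌉₊) := by
  have hA : IsMasa A := ⟨hcomm, hstar⟩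
  have hmin : NoMinProj A := hdiff
  have hiff : ∀ (ε : ℝ) (r : ℕ), 0 < ε →
      ((∀ x : H →L[ℂ] H, IsSelfAdjoint x → SoPavable Set.univ A x ε r)
        ↔ 1 ≤ (r : ℝ) * ε) := by
    intro ε r hε
    constructor
    · intro h
      by_contra hcon
      rw [not_le] at hcon
      obtain ⟨x, hx, hnot⟩ := hA.exists_not_soPavable hmin ε hε r hcon
      exact hnot (h x hx)
    · intro h x hx
      exact hA.soPavable_of_one_le hmin x hx ε r h
  refine ⟨hiff, ?_⟩
  intro ε hε
  have hset : {r : ℕ | 1 ≤ r ∧ ∀ x ∈ (Set.univ : Set (H →L[ℂ] H)),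
      IsSelfAdjoint x → SoPavable Set.univ A x ε r} = Set.Ici ⌈1 / ε⌉₊ := by
    ext r
    simp only [Set.mem_ofPred_eq, Set.mem_univ, forall_true_left, Set.mem_Ici]
    rw [hiff ε r hε, Nat.ceil_le, div_le_iff₀ hε]
    constructor
    · exact fun h => h.2
    · intro h
      refine ⟨?_, h⟩
      rcases Nat.eq_zero_or_pos r with h0 | h0
      · subst h0
        simp at h
        linarith
      · exact h0
  unfold pavingSize
  rw [hset]
  exact csInf_Ici

end Vale.Agent.Results.P078.AbstractMasaExact
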