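import Mathlib
import Vale.Agent.Lib.P078.Defs
import Vale.Agent.Lib.P078.Abs.Basic
import Vale.Agent.Lib.P078.Abs.Step
import Vale.Agent.Lib.P078.Abs.UpperAbs
import Vale.Agent.Lib.P078.Abs.LowerAbs
import Vale.Agent.Lib.P078.Abs.Infinite

/-!
# P078: so-paving over the MASAs of `B(H)`: a lower bound for all of them, the exact size for the
diffuse ones

`M = B(H)` (all bounded operators on a complex Hilbert space `H`) and `A` is a maximal abelian
self-adjoint subalgebra of `B(H)`: a set of operators that equals its commutant and is closed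
under adjoints.

* Part (I): if `H` is infinite-dimensional and every self-adjoint `x ∈ B(H)` is `(ε, r)`
  so-pavable over `A`, then `r ε ≥ 1`.  So `n_{A ⊆ M}(ε) ≥ 1/ε` for every MASA of `B(H)`.
* Part (II): if `H ≠ 0` and `A` has no minimal projections, then every self-adjoint `x ∈ B(H)`
  is `(ε, r)` so-pavable over `A` if and only if `r ε ≥ 1`, and `n_{A ⊆ M}(ε) = ⌈1/ε⌉`.
-/

namespace Vale.Agent.Results.P078.AllMasaPaving

open Vale.Agent.Lib.P078

universe u

theorem result {H : Type u} [NormedAddCommGroup H] [InnerProductSpace ℂ H] [CompleteSpace H]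
    (A : Set (H →L[ℂ] H))
    (hcomm : ∀ T : H →L[ℂ] H, T ∈ A ↔ ∀ S ∈ A, S * T = T * S)
    (hstar : ∀ T ∈ A, star T ∈ A) :
    (¬ FiniteDimensional ℂ H → ∀ (ε : ℝ) (r : ℕ), 0 < ε →
      (∀ x : H →L[ℂ] H, IsSelfAdjoint x → SoPavable Set.univ A x ε r) → 1 ≤ (r : ℝ) * ε) ∧
    (Nontrivial H →
      (∀ p ∈ A, IsStarProjection p → p ≠ 0 →
        ∃ p' ∈ A, IsStarProjection p' ∧ p' ≠ 0 ∧ p' ≠ p ∧ p * p' = p') →
      (∀ (ε : ℝ) (r : ℕ), 0 < ε →
        ((∀ x : H →L[ℂ] H, IsSelfAdjoint x → SoPavable Set.univ A x ε r)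
          ↔ 1 ≤ (r : ℝ) * ε)) ∧
      (∀ ε : ℝ, 0 < ε → pavingSize Set.univ A ε = ⌈1 / ε⌉₊)) := by
  have hA : IsMasa A := ⟨hcomm, hstar⟩
  refine ⟨?_, ?_⟩
  · intro hinf ε r hε h
    by_contra hcon
    rw [not_le] at hcon
    obtain ⟨x, hx, hnot⟩ := hA.not_soPavable_of_projections ε hε r hcon
      (fun N => hA.exists_orthogonal_projections_of_infinite
        (fun T hT δ hδ => hA.exists_step hT δ hδ) hinf N)
    exact hnot (h x hx)
  · intro hnt hdiff
    have hmin : NoMinProj A := hdiff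
    have hiff : ∀ (ε : ℝ) (r : ℕ), 0 < ε →
        ((∀ x : H →L[ℂ] H, IsSelfAdjoint x → SoPavable Set.univ A x ε r)
          ↔ 1 ≤ (r : ℝ) * ε) := by
      intro ε r hε
      constructor
      · intro h
        by_contra hcon
        rw [not_le] at hcon
        obtain ⟨x, hx, hnot⟩ := hA.exists_not_soPavable hmin ε hε r hcon
        exact hnot (h x hx)
      · intro h x hx
        exact hA.soPavable_of_one_le hmin x hx ε r h
    refine ⟨hiff, ?_⟩
    intro ε hε
    have hset : {r : ℕ | 1 ≤ r ∧ ∀ x ∈ (Set.univ : Set (H →L[ℂ] H)),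
        IsSelfAdjoint x → SoPavable Set.univ A x ε r} = Set.Ici ⌈1 / ε⌉₊ := by
      ext r
      simp only [Set.mem_ofPred_eq, Set.mem_univ, forall_true_left, Set.mem_Ici]
      rw [hiff ε r hε, Nat.ceil_le, div_le_iff₀ hε]
      constructor
      · exact fun h => h.2
      · intro h
        refine ⟨?_, h⟩
        rcases Nat.eq_zero_or_pos r with h0 | h0
        · subst h0
          simp at h
          linarith
        · exact h0
    unfold pavingSize
    rw [hset]
    exact csInf_Ici

end Vale.Agent.Results.P078.AllMasaPaving
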