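import Mathlib
import Vale.Agent.Lib.P078.Defs
import Vale.Agent.Lib.P078.Mult
import Vale.Agent.Lib.P078.UpperConcrete
import Vale.Agent.Lib.P078.ExactConcrete
import Vale.Agent.Lib.P078.LowerGen
import Vale.Agent.Lib.P078.Atomless
import Vale.Agent.Lib.P078.MasaBasic
import Vale.Agent.Lib.P078.Commutant

/-!
# P078: the so-paving size of `L^∞(μ) ⊆ B(L²(μ))` is exactly `⌈1/ε⌉`, for every finite atomless `μ`

`(X, μ)` is any finite, nonzero, atomless measure space, `H = L²(μ)`, `M = B(H)` (all bounded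
operators) and `A` is the algebra of multiplication operators by essentially bounded functions.

* `A` is a maximal abelian self-adjoint subalgebra: it equals its commutant and is closed under
  adjoints.
* Every self-adjoint `x ∈ B(H)` is `(ε, r)` so-pavable over `A` if and only if `r ε ≥ 1`.
* Hence `n_{A ⊆ M}(ε) = ⌈1/ε⌉` for every `ε > 0`.
-/

namespace Vale.Agent.Results.P078.AtomlessMasaExact

open Vale.Agent.Lib.P078 MeasureTheory

theorem result {X : Type*} [MeasurableSpace X] (μ : Measure X) [IsFiniteMeasure μ] (hμ0 : μ ≠ 0)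
    (hat : ∀ s : Set X, MeasurableSet s → 0 < μ s →
      ∃ t, MeasurableSet t ∧ t ⊆ s ∧ 0 < μ t ∧ μ t < μ s)
    (A : Set (Lp ℂ 2 μ →L[ℂ] Lp ℂ 2 μ))
    (hA : A = {T | ∃ φ : X → ℂ, MemLp φ ⊤ μ ∧
      ∀ g : Lp ℂ 2 μ, T g =ᵐ[μ] fun t => φ t * g t}) :
    (∀ T : Lp ℂ 2 μ →L[ℂ] Lp ℂ 2 μ, T ∈ A ↔ ∀ S ∈ A, S * T = T * S) ∧
    (∀ T ∈ A, star T ∈ A) ∧
    (∀ (ε : ℝ) (r : ℕ), 0 < ε →
      ((∀ x : Lp ℂ 2 μ →L[ℂ] Lp ℂ 2 μ, IsSelfAdjoint x → SoPavable Set.univ A x ε r)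
        ↔ 1 ≤ (r : ℝ) * ε)) ∧
    (∀ ε : ℝ, 0 < ε → pavingSize Set.univ A ε = ⌈1 / ε⌉₊) := by
  have hA' : A = multAlg μ := hA
  subst hA'
  have hsp : HasSmallPartitions μ := hasSmallPartitions_of_atomless μ hat
  have hinf : ¬ FiniteDimensional ℂ (Lp ℂ 2 μ) := not_finiteDimensional_Lp hsp hμ0
  have hiff : ∀ (ε : ℝ) (r : ℕ), 0 < ε →
      ((∀ x : Lp ℂ 2 μ →L[ℂ] Lp ℂ 2 μ, IsSelfAdjoint x →
          SoPavable Set.univ (multAlg μ) x ε r) ↔ 1 ≤ (r : ℝ) * ε) := by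
    intro ε r hε
    constructor
    · intro h
      by_contra hcon
      rw [not_le] at hcon
      obtain ⟨x, hx, hnot⟩ := exists_not_soPavable hsp hμ0 ε hε r hcon
      exact hnot (h x hx)
    · intro h x hx
      exact soPavable_multAlg_of_one_le hsp hinf x hx ε r h
  refine ⟨fun T => ⟨fun hT S hS => multAlg_comm S T hS hT, fun h => multAlg_commutant T h⟩,
    fun T hT => multAlg_star T hT, hiff, ?_⟩
  intro ε hε
  have hpos : 0 < 1 / ε := by positivity
  have hset : {r : ℕ | 1 ≤ r ∧ ∀ x ∈ (Set.univ : Set (Lp ℂ 2 μ →L[ℂ] Lp ℂ 2 μ)),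
      IsSelfAdjoint x → SoPavable Set.univ (multAlg μ) x ε r} = Set.Ici ⌈1 / ε⌉₊ := by
    ext r
    simp only [Set.mem_ofPred_eq, Set.mem_univ, forall_true_left, Set.mem_Ici]
    rw [hiff ε r hε, Nat.ceil_le, div_le_iff₀ hε]
    constructor
    · exact fun h => h.2
    · intro h
      refine ⟨?_, h⟩
      rcases Nat.eq_zero_or_pos r with h0 | h0
      · subst h0
        simp at h
        linarith
      · exact h0
  unfold pavingSize
  rw [hset]
  exact csInf_Ici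

end Vale.Agent.Results.P078.AtomlessMasaExact
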