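import Mathlib
import Vale.Agent.Lib.P078.Defs
import Vale.Agent.Lib.P078.Mult
import Vale.Agent.Lib.P078.UpperConcrete
import Vale.Agent.Lib.P078.Interval
import Vale.Agent.Lib.P078.ExactConcrete
import Vale.Agent.Lib.P078.LowerGen
import Vale.Agent.Lib.P078.MasaBasic
import Vale.Agent.Lib.P078.Commutant

/-!
# P078: the so-paving size of the diffuse MASA of `B(L²(0,1])` is exactly `⌈1/ε⌉`

`H = L²((0,1], Lebesgue)`, `M = B(H)` (all bounded operators), `A = L^∞` acting by multiplication.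

* `A` is a maximal abelian self-adjoint subalgebra: it equals its commutant and is closed under
  adjoints.
* Every self-adjoint `x ∈ B(H)` is `(ε, r)` so-pavable over `A` if and only if `r ε ≥ 1`.
* Hence `n_{A ⊆ M}(ε) = ⌈1/ε⌉` for every `ε > 0`.
-/

namespace Vale.Agent.Results.P078.DiffuseMasaExact

open Vale.Agent.Lib.P078 MeasureTheory

theorem result (μ : Measure ℝ) (hμ : μ = volume.restrict (Set.Ioc (0 : ℝ) 1))
    (A : Set (Lp ℂ 2 μ →L[ℂ] Lp ℂ 2 μ))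
    (hA : A = {T | ∃ φ : ℝ → ℂ, MemLp φ ⊤ μ ∧
      ∀ g : Lp ℂ 2 μ, T g =ᵐ[μ] fun t => φ t * g t}) :
    (∀ T : Lp ℂ 2 μ →L[ℂ] Lp ℂ 2 μ, T ∈ A ↔ ∀ S ∈ A, S * T = T * S) ∧
    (∀ T ∈ A, star T ∈ A) ∧
    (∀ (ε : ℝ) (r : ℕ), 0 < ε →
      ((∀ x : Lp ℂ 2 μ →L[ℂ] Lp ℂ 2 μ, IsSelfAdjoint x → SoPavable Set.univ A x ε r)
        ↔ 1 ≤ (r : ℝ) * ε)) ∧
    (∀ ε : ℝ, 0 < ε → pavingSize Set.univ A ε = ⌈1 / ε⌉₊) := by
  subst hμ
  have hA' : A = multAlg (volume.restrict (Set.Ioc (0 : ℝ) 1)) := hA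
  subst hA'
  have hsp : HasSmallPartitions (volume.restrict (Set.Ioc (0 : ℝ) 1)) := hasSmallPartitions_unit
  have hμ0 : (volume.restrict (Set.Ioc (0 : ℝ) 1)) ≠ 0 := by
    intro h
    have h1 : (volume.restrict (Set.Ioc (0 : ℝ) 1)) Set.univ = 0 := by rw [h]; rfl
    rw [Measure.restrict_apply MeasurableSet.univ, Set.univ_inter, Real.volume_Ioc] at h1
    simp at h1
  have hinf : ¬ FiniteDimensional ℂ (Lp ℂ 2 (volume.restrict (Set.Ioc (0 : ℝ) 1))) :=
    not_finiteDimensional_Lp hsp hμ0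
  have hiff : ∀ (ε : ℝ) (r : ℕ), 0 < ε →
      ((∀ x : Lp ℂ 2 (volume.restrict (Set.Ioc (0 : ℝ) 1)) →L[ℂ]
          Lp ℂ 2 (volume.restrict (Set.Ioc (0 : ℝ) 1)), IsSelfAdjoint x →
          SoPavable Set.univ (multAlg (volume.restrict (Set.Ioc (0 : ℝ) 1))) x ε r)
        ↔ 1 ≤ (r : ℝ) * ε) := by
    intro ε r hε
    constructor
    · intro h
      by_contra hcon
      rw [not_le] at hcon
      exact not_soPavable_unit ε hε r hcon (h _ (symOp_isSelfAdjoint _))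
    · intro h x hx
      exact soPavable_multAlg_of_one_le hsp hinf x hx ε r h
  refine ⟨fun T => ⟨fun hT S hS => multAlg_comm S T hS hT, fun h => multAlg_commutant T h⟩,
    fun T hT => multAlg_star T hT, hiff, ?_⟩
  intro ε hε
  have hset : {r : ℕ | 1 ≤ r ∧ ∀ x ∈ (Set.univ : Set (Lp ℂ 2
      (volume.restrict (Set.Ioc (0 : ℝ) 1)) →L[ℂ] Lp ℂ 2 (volume.restrict (Set.Ioc (0 : ℝ) 1)))),
      IsSelfAdjoint x → SoPavable Set.univ (multAlg (volume.restrict (Set.Ioc (0 : ℝ) 1))) x ε r}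
      = Set.Ici ⌈1 / ε⌉₊ := by
    ext r
    simp only [Set.mem_ofPred_eq, Set.mem_univ, forall_true_left, Set.mem_Ici]
    rw [hiff ε r hε, Nat.ceil_le, div_le_iff₀ hε]
    constructor
    · exact fun h => h.2
    · intro h
      refine ⟨?_, h⟩
      rcases Nat.eq_zero_or_pos r with h0 | h0
      · subst h0
        simp at h
        linarith
      · exact h0
  unfold pavingSize
  rw [hset]
  exact csInf_Ici

end Vale.Agent.Results.P078.DiffuseMasaExact
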